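import Vale.Agent.P011N.Iface

/-!
The local finiteness of the quotient by a noncentral normal subgroup.
-/

open Topology Module

namespace Vale.Agent.P011N.A1b

/-- The normal subgroup theorem for the group of a good family of forms. -/
def KeyStmt : Prop :=
  ∀ (V : Type) [AddCommGroup V] [Module ℚ V] (d : ℕ) (b : Basis (Fin d) ℚ V)
    (P : Finset Nat.Primes) (T : Forms V), T.Good → ∀ N : Subgroup (V ≃ₗ[ℚ] V), N ≤ T.grp →
    (∀ g ∈ T.grp, ∀ n ∈ N, g * n * g⁻¹ ∈ N) → (∃ n ∈ N, ∃ g ∈ T.grp, g * n ≠ n * g) →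
    ∃ L₁ : Subgroup (V ≃ₗ[ℚ] V), L₁ ≤ T.grp ∧ (∀ g ∈ T.grp, ∀ n ∈ L₁, g * n * g⁻¹ ∈ L₁) ∧
      OpenIn b P L₁ T.grp ∧ ∀ C : Set (V ≃ₗ[ℚ] V), C.Finite → C ⊆ L₁ →
        N.relIndex (IntG b P ⊓ Subgroup.closure C) ≠ 0

theorem fg_map {G H : Type} [Group G] [Group H] {K : Subgroup G} (h : K.FG) (f : G →* H) :
    (K.map f).FG := by
  obtain ⟨C, h1, h2⟩ := (Subgroup.fg_iff K).mp h
  exact (Subgroup.fg_iff _).mpr ⟨f '' C, by rw [← MonoidHom.map_closure, h1], h2.image f⟩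

theorem intG_mono {V : Type} [AddCommGroup V] [Module ℚ V] {d : ℕ} (b : Basis (Fin d) ℚ V)
    {P P' : Finset Nat.Primes} (h : P ⊆ P') : IntG b P ≤ IntG b P' := by
  refine Subgroup.closure_mono ?_
  rintro g ⟨h1, h2⟩
  exact ⟨fun i j p hp => h1 i j p fun h' => hp (h h'), fun i j p hp => h2 i j p fun h' => hp (h h')⟩

/-- A finitely generated group is integral outside a finite set of primes. -/
theorem exists_intG (hD : DiscStmt) {V : Type} [AddCommGroup V] [Module ℚ V] {d : ℕ}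
    (b : Basis (Fin d) ℚ V) (C : Set (V ≃ₗ[ℚ] V)) (hC : C.Finite) :
    ∃ P : Finset Nat.Primes, Subgroup.closure C ≤ IntG b P := by
  have key : ∃ P : Finset Nat.Primes, ∀ g ∈ C, g ∈ IntG b P := by
    induction C, hC using Set.Finite.induction_on with
    | empty => exact ⟨∅, fun g hg => absurd hg (Set.notMem_empty g)⟩
    | @insert g C _ _ ih =>
      obtain ⟨P, hP⟩ := ih
      obtain ⟨P', h1, h2⟩ := (hD V d b P).2.2.2.2 g
      refine ⟨P', fun x hx => ?_⟩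
      rcases Set.mem_insert_iff.mp hx with rfl | hx
      · exact h2
      · exact intG_mono b h1 (hP x hx)
  obtain ⟨P, hP⟩ := key
  exact ⟨P, (Subgroup.closure_le _).mpr hP⟩

/-- If the open normal subgroups have finite index, a noncentral normal subgroup has finite index
in every finitely generated subgroup. -/
theorem locFin (hK : KeyStmt) (hD : DiscStmt) {V : Type} [AddCommGroup V] [Module ℚ V] {d : ℕ}
    (b : Basis (Fin d) ℚ V) (T : Forms V) (hT : T.Good)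
    (hO : ∀ (P : Finset Nat.Primes) (L₁ : Subgroup (V ≃ₗ[ℚ] V)), L₁ ≤ T.grp →
      (∀ g ∈ T.grp, ∀ n ∈ L₁, g * n * g⁻¹ ∈ L₁) → OpenIn b P L₁ T.grp → L₁.relIndex T.grp ≠ 0)
    (N : Subgroup (V ≃ₗ[ℚ] V)) (hN : N ≤ T.grp) (hn : ∀ g ∈ T.grp, ∀ n ∈ N, g * n * g⁻¹ ∈ N)
    (hc : ∃ n ∈ N, ∃ g ∈ T.grp, g * n ≠ n * g) (Δ : Subgroup (V ≃ₗ[ℚ] V)) (hΔ : Δ ≤ T.grp)
    (hfg : Δ.FG) : N.relIndex Δ ≠ 0 := by
  obtain ⟨C, hC1, hC2⟩ := (Subgroup.fg_iff Δ).mp hfg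
  obtain ⟨P, hP⟩ := exists_intG hD b C hC2
  rw [hC1] at hP
  obtain ⟨L₁, h1, h2, h3, h4⟩ := hK V d b P T hT N hN hn hc
  have h5 : L₁.relIndex Δ ≠ 0 := fun h =>
    hO P L₁ h1 h2 h3 (Subgroup.relIndex_eq_zero_of_le_right hΔ h)
  have hfg' : (L₁ ⊓ Δ).FG := by
    have : Group.FG Δ := (Group.fg_iff_subgroup_fg Δ).mpr hfg
    have : (L₁.subgroupOf Δ).FiniteIndex := ⟨h5⟩
    have h6 : (L₁.subgroupOf Δ).FG := (Group.fg_iff_subgroup_fg _).mp inferInstance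
    have h7 := fg_map h6 Δ.subtype
    rwa [Subgroup.subgroupOf_map_subtype] at h7
  obtain ⟨C', hC1', hC2'⟩ := (Subgroup.fg_iff _).mp hfg'
  have h8 := h4 C' hC2' fun x hx => (hC1' ▸ Subgroup.subset_closure hx : x ∈ L₁ ⊓ Δ).1
  rw [hC1', inf_eq_right.mpr (inf_le_right.trans hP)] at h8
  have h9 : (L₁ ⊓ Δ).relIndex Δ ≠ 0 := by rwa [Subgroup.inf_relIndex_right]
  intro h0
  have h10 := Subgroup.relIndex_mul_relIndex (N ⊓ (L₁ ⊓ Δ)) (L₁ ⊓ Δ) Δ inf_le_right inf_le_right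
  rw [Subgroup.inf_relIndex_right] at h10
  have h11 : (N ⊓ (L₁ ⊓ Δ)).relIndex Δ = 0 :=
    Subgroup.relIndex_eq_zero_of_le_left inf_le_left h0
  rw [h11] at h10
  exact mul_ne_zero h8 h9 h10

end Vale.Agent.P011N.A1b
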