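import Vale.Agent.P011.MPQ.EFinal

/-!
Open normal subgroups of the norm-one group of a quaternion algebra over a local field have finite
index.
-/

open scoped Quaternion
open Topology

namespace Vale.Agent.P011N.A1b

open Vale.Agent.P011 Vale.Agent.P011.MPQ

section abs

/-- A normal subgroup which is open for a dense map to a finite product. -/
theorem index_ne_zero_of_dense {Λ ι : Type} [Group Λ] [Finite ι] {G : ι → Type}
    [∀ i, Group (G i)] [∀ i, TopologicalSpace (G i)] [∀ i, IsTopologicalGroup (G i)]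
    (Φ : Λ →* ∀ i, G i) (hd : DenseRange Φ)
    (hG : ∀ i, ∀ L : Subgroup (G i), L.Normal → IsOpen (L : Set (G i)) → L.index ≠ 0)
    (N : Subgroup Λ) (hN : N.Normal) {U : Set (∀ i, G i)} (hU : U ∈ 𝓝 (1 : ∀ i, G i))
    (h : ∀ x, Φ x ∈ U → x ∈ N) : N.index ≠ 0 := by
  classical
  let H : Subgroup (∀ i, G i) := (N.map Φ).topologicalClosure
  have hHc : IsClosed (H : Set (∀ i, G i)) := Subgroup.isClosed_topologicalClosure _
  have hHn : H.Normal := by
    refine ⟨fun n hn g => ?_⟩
    have h1 : ∀ x : Λ, Φ x * n * (Φ x)⁻¹ ∈ H := by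
      intro x
      have hc : Continuous fun y : ∀ i, G i => Φ x * y * (Φ x)⁻¹ := by fun_prop
      refine closure_mono ?_ (mem_closure_image (f := fun y : ∀ i, G i => Φ x * y * (Φ x)⁻¹)
        (x := n) hc.continuousAt hn)
      rintro _ ⟨_, ⟨m, hm, rfl⟩, rfl⟩
      exact ⟨x * m * x⁻¹, hN.conj_mem m hm x, by simp⟩
    have hc : Continuous fun y : ∀ i, G i => y * n * y⁻¹ := by fun_prop
    exact hd.induction_on (p := fun y => y * n * y⁻¹ ∈ H) g (hHc.preimage hc) h1
  have hHo : IsOpen (H : Set (∀ i, G i)) := by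
    refine H.isOpen_of_mem_nhds (g := 1) (Filter.mem_of_superset (interior_mem_nhds.mpr hU) ?_)
    intro y hy
    refine closure_mono ?_ (hd.open_subset_closure_inter isOpen_interior hy)
    rintro _ ⟨h1, x, rfl⟩
    exact ⟨x, h x (interior_subset h1), rfl⟩
  have hle : H.comap Φ ≤ N := by
    intro x hx
    have hc : ContinuousAt (fun y : ∀ i, G i => (Φ x)⁻¹ * y) (Φ x) := by fun_prop
    have h1 : (fun y : ∀ i, G i => (Φ x)⁻¹ * y) ⁻¹' U ∈ 𝓝 (Φ x) := by
      refine hc.preimage_mem_nhds ?_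
      rwa [inv_mul_cancel]
    obtain ⟨_, h2, n, hn, rfl⟩ := mem_closure_iff_nhds.mp hx _ h1
    have h3 : x⁻¹ * n ∈ N := h _ (by rw [map_mul, map_inv]; exact h2)
    have h4 := N.mul_mem hn (N.inv_mem h3)
    simpa using h4
  have hL : ∀ i, ((H.comap (MonoidHom.mulSingle G i)).comap (Pi.evalMonoidHom G i)).FiniteIndex := by
    intro i
    have : (H.comap (MonoidHom.mulSingle G i)).FiniteIndex :=
      ⟨hG i _ (hHn.comap _) (hHo.preimage (continuous_mulSingle i))⟩
    rw [Subgroup.finiteIndex_iff, Subgroup.index_comap]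
    exact Subgroup.FiniteIndex.index_ne_zero
  have h1 := Subgroup.finiteIndex_iInf hL
  have h2 : (⨅ i, (H.comap (MonoidHom.mulSingle G i)).comap (Pi.evalMonoidHom G i)) ≤ H := by
    refine le_trans ?_ ((Subgroup.pi_le_iff
      (H := fun i => H.comap (MonoidHom.mulSingle G i))).mpr fun i => Subgroup.map_comap_le _ _)
    intro y hy i _
    exact Subgroup.mem_iInf.mp hy i
  have h3 : H.FiniteIndex := Subgroup.finiteIndex_of_le h2
  have h4 : (H.comap Φ).FiniteIndex := by
    rw [Subgroup.finiteIndex_iff, Subgroup.index_comap]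
    exact Subgroup.FiniteIndex.index_ne_zero
  exact (Subgroup.finiteIndex_of_le hle).index_ne_zero

end abs

/-- The norm-one group. -/
def G1 {K : Type} [Field K] (a b : K) : Type := unitary ℍ[K,a,b]

section alg

variable {K : Type} [Field K] {a b : K}

instance : Group (G1 a b) := inferInstanceAs (Group (unitary ℍ[K,a,b]))

/-- The underlying quaternion. -/
def G1.val (g : G1 a b) : ℍ[K,a,b] := Subtype.val (p := fun x => x ∈ unitary ℍ[K,a,b]) g

theorem G1.ext {g h : G1 a b} (e : g.val = h.val) : g = h := Subtype.ext e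

@[simp] theorem G1.val_mul (g h : G1 a b) : (g * h).val = g.val * h.val := rfl

@[simp] theorem G1.val_one : (1 : G1 a b).val = 1 := rfl

@[simp] theorem G1.val_inv (g : G1 a b) : (g⁻¹).val = star g.val := rfl

theorem G1.prop (g : G1 a b) : g.val * star g.val = 1 :=
  (Subtype.property (p := fun x => x ∈ unitary ℍ[K,a,b]) g).2

theorem star_mul_of {q : ℍ[K,a,b]} (h : q * star q = 1) : star q * q = 1 := by
  rw [norm_one_iff] at h
  have h1 : star q * star (star q) = 1 := by
    rw [norm_one_iff]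
    simp only [QuaternionAlgebra.re_star, QuaternionAlgebra.imI_star, QuaternionAlgebra.imJ_star,
      QuaternionAlgebra.imK_star]
    linear_combination h
  rwa [star_star] at h1

/-- The element given by a quaternion of norm one. -/
def G1.mk (q : ℍ[K,a,b]) (h : q * star q = 1) : G1 a b :=
  (⟨q, star_mul_of h, h⟩ : unitary ℍ[K,a,b])

@[simp] theorem G1.val_mk (q : ℍ[K,a,b]) (h : q * star q = 1) : (G1.mk q h).val = q := rfl

/-- The coordinates. -/
def G1.co (g : G1 a b) : Fin 4 → K := ![g.val.re, g.val.imI, g.val.imJ, g.val.imK]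

open Classical in
/-- Stereographic coordinates. -/
noncomputable def cfG (a b : K) (p : Fin 3 → K) : G1 a b :=
  if h : 1 + pn a b p ≠ 0 then G1.mk (e_cf a b p) (cf_norm h) else 1

theorem cfG_val {p : Fin 3 → K} (h : 1 + pn a b p ≠ 0) : (cfG a b p).val = e_cf a b p := by
  rw [cfG, dif_pos h, G1.val_mk]

theorem exists_three [CharZero K] (ha : a ≠ 0) (g : G1 a b) : ∃ p q r : Fin 3 → K,
    1 + pn a b p ≠ 0 ∧ 1 + pn a b q ≠ 0 ∧ 1 + pn a b r ≠ 0 ∧
      g = cfG a b p * cfG a b q * cfG a b r := by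
  have h0 : 1 + pn a b (0 : Fin 3 → K) ≠ 0 := by simp [pn]
  by_cases hre : g.val.re = -1
  · obtain ⟨t, ht0, ht⟩ : ∃ t : K, t ≠ 0 ∧ 1 - a * t ^ 2 ≠ 0 := by
      by_cases h1 : a = 1
      · exact ⟨2, two_ne_zero, by rw [h1]; norm_num⟩
      · exact ⟨1, one_ne_zero, fun h => h1 (by linear_combination -h)⟩
    have hpn : pn a b ![t, 0, 0] = -(a * t ^ 2) := by simp [pn]
    have hq : 1 + pn a b ![t, 0, 0] ≠ 0 := by rwa [hpn, ← sub_eq_add_neg]
    have h2 := cf_norm hq
    have h3 : (-star (e_cf a b ![t, 0, 0])) * star (-star (e_cf a b ![t, 0, 0])) = 1 := by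
      rw [star_neg, star_star, neg_mul_neg]
      exact star_mul_of h2
    have hre' : (-star (e_cf a b ![t, 0, 0])).re ≠ -1 := by
      rw [QuaternionAlgebra.re_neg, QuaternionAlgebra.re_star, zero_mul, add_zero]
      simp only [e_cf]
      intro h4
      rw [neg_inj, div_eq_one_iff_eq hq, hpn] at h4
      have h7 : (2 : K) * (a * t ^ 2) = 0 := by linear_combination h4
      exact mul_ne_zero two_ne_zero (mul_ne_zero ha (pow_ne_zero 2 ht0)) h7
    obtain ⟨r, hr, hr'⟩ := exists_cf h3 hre'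
    have h5 : (-g.val) * star (-g.val) = 1 := by rw [star_neg, neg_mul_neg]; exact g.prop
    obtain ⟨p, hp, hp'⟩ := exists_cf h5 (by
      rw [QuaternionAlgebra.re_neg, hre, neg_neg]
      intro h
      have h8 : (2 : K) = 0 := by linear_combination h
      exact two_ne_zero h8)
    refine ⟨p, _, r, hp, hq, hr, G1.ext ?_⟩
    rw [G1.val_mul, G1.val_mul, cfG_val hp, cfG_val hq, cfG_val hr, hp', hr', mul_assoc, mul_neg,
      h2, neg_mul_neg, mul_one]
  · obtain ⟨p, hp, hp'⟩ := exists_cf g.prop hre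
    refine ⟨p, 0, 0, hp, h0, h0, G1.ext ?_⟩
    rw [G1.val_mul, G1.val_mul, cfG_val hp, cfG_val h0, hp', cf_zero, mul_one, mul_one]

end alg

section top

variable {K : Type} [NormedField K] {a b : K}

instance : TopologicalSpace (G1 a b) := TopologicalSpace.induced G1.co inferInstance

theorem co_inducing : IsInducing (G1.co : G1 a b → Fin 4 → K) := ⟨rfl⟩

theorem continuousAt_iff {X : Type} [TopologicalSpace X] {f : X → G1 a b} {x : X} :
    ContinuousAt f x ↔ CAt (fun y => (f y).val) x := by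
  rw [co_inducing.continuousAt_iff, continuousAt_pi]
  constructor
  · intro h
    exact ⟨h 0, h 1, h 2, h 3⟩
  · intro h i
    fin_cases i
    · exact h.re
    · exact h.imI
    · exact h.imJ
    · exact h.imK

instance : IsTopologicalGroup (G1 a b) where
  continuous_mul := continuous_iff_continuousAt.mpr fun _ => continuousAt_iff.mpr
    ((continuousAt_iff.mp continuousAt_fst).mul (continuousAt_iff.mp continuousAt_snd))
  continuous_inv := continuous_iff_continuousAt.mpr fun _ => continuousAt_iff.mpr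
    (continuousAt_iff.mp continuousAt_id).star

theorem continuousAt_cfG {p : Fin 3 → K} (h : 1 + pn a b p ≠ 0) : ContinuousAt (cfG a b) p := by
  have hn : ContinuousAt (fun q : Fin 3 → K => 1 + pn a b q) p := by
    unfold pn
    fun_prop
  have h1 : ∀ᶠ q in 𝓝 p, (cfG a b q).val = e_cf a b q :=
    (hn.eventually_ne h).mono fun q hq => cfG_val hq
  obtain ⟨c0, c1, c2, c3⟩ := CAt.e_cf (a := a) (b := b) (p := id) continuousAt_id h
  refine continuousAt_iff.mpr ⟨c0.congr ?_, c1.congr ?_, c2.congr ?_, c3.congr ?_⟩ <;>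
    exact h1.mono fun q hq => by simp only [hq, id]

/-- The anisotropic case. -/
theorem compact_of_aniso [ProperSpace K] [CharZero K] (ha : a ≠ 0)
    (hb : ¬ ∃ x y : K, b = x ^ 2 - a * y ^ 2) : CompactSpace (G1 a b) := by
  obtain ⟨m, hm, hbd⟩ := bound_gen (A := a) (B := b)
    (N := fun c => c 0 ^ 2 - a * c 1 ^ 2 - b * c 2 ^ 2 + a * b * c 3 ^ 2) (fun _ => rfl) (by
      intro c hc
      obtain ⟨h4, h5, h6, h7⟩ := aniso_gen two_ne_zero ha hb hc
      funext i
      fin_cases i
      · exact h4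
      · exact h5
      · exact h6
      · exact h7)
  have hr : Set.range (G1.co : G1 a b → Fin 4 → K) =
      {c | c 0 ^ 2 - a * c 1 ^ 2 - b * c 2 ^ 2 + a * b * c 3 ^ 2 = 1} := by
    ext c
    constructor
    · rintro ⟨g, rfl⟩
      exact (norm_one_iff _).mp g.prop
    · intro hc
      refine ⟨G1.mk ⟨c 0, c 1, c 2, c 3⟩ ((norm_one_iff _).mpr hc), ?_⟩
      funext i
      fin_cases i <;> rfl
  refine ⟨co_inducing.isCompact_iff.mpr ?_⟩
  rw [Set.image_univ, hr]
  refine Metric.isCompact_of_isClosed_isBounded (isClosed_eq (by fun_prop) continuous_const) ?_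
  refine (Metric.isBounded_closedBall (x := (0 : Fin 4 → K)) (r := 1 + m⁻¹)).subset ?_
  intro c hc
  have hc' : c 0 ^ 2 - a * c 1 ^ 2 - b * c 2 ^ 2 + a * b * c 3 ^ 2 = 1 := hc
  have hpos : 0 < 1 + m⁻¹ := by positivity
  rw [mem_closedBall_zero_iff, pi_norm_le_iff_of_nonneg hpos.le]
  intro i
  refine (hbd c (1 + m⁻¹) hpos ?_ i).le
  rw [hc', norm_one]
  have h1 : m⁻¹ * m = 1 := inv_mul_cancel₀ hm.ne'
  have h2 : 0 < m⁻¹ := inv_pos.mpr hm
  nlinarith [mul_pos h2 h2]

end top

section split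

variable {K : Type} [NontriviallyNormedField K] [CharZero K] {a b x y : K}

/-- The split case. -/
theorem eq_top_of_split (hb : b = x ^ 2 - a * y ^ 2) (ha : a ≠ 0) (hb0 : b ≠ 0)
    (L : Subgroup (G1 a b)) (hL : L.Normal) (ho : IsOpen (L : Set (G1 a b))) : L = ⊤ := by
  have hinj : Function.Injective (toM a x y : ℍ[K,a,b] → _) := fun p q h => by
    rw [← ofM_toM hb ha hb0 p, h, ofM_toM hb ha hb0]
  have hone : ∀ m : Matrix (Fin 2) (Fin 2) K, m.det = 1 →
      ofM a x y b m * star (ofM a x y b m) = 1 := by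
    intro m hm
    rw [norm_one_iff, ← det_toM hb, toM_ofM hb ha hb0, hm]
  have hext : ∀ g h : G1 a b, toM a x y g.val = toM a x y h.val → g = h :=
    fun g h e => G1.ext (hinj e)
  have h1M : toM a x y (1 : ℍ[K,a,b]) = 1 := by
    ext i j
    fin_cases i <;> fin_cases j <;> simp [toM]
  -- one-parameter families
  have key : ∀ (u : K → Matrix (Fin 2) (Fin 2) K) (hu : ∀ t, (u t).det = 1),
      (∀ i j, Continuous fun t => u t i j) → u 0 = 1 →
      (∀ s : K, s ≠ 0 → ∃ d : Matrix (Fin 2) (Fin 2) K, d.det = 1 ∧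
        ∀ t, d * u t = u (s ^ 2 * t) * d) →
      ∀ t, G1.mk _ (hone _ (hu t)) ∈ L := by
    intro u hu hc h0 hd t
    have hcont : ContinuousAt (fun t => G1.mk _ (hone _ (hu t))) 0 := by
      have c00 := (hc 0 0).continuousAt (x := 0)
      have c01 := (hc 0 1).continuousAt (x := 0)
      have c10 := (hc 1 0).continuousAt (x := 0)
      have c11 := (hc 1 1).continuousAt (x := 0)
      refine continuousAt_iff.mpr ⟨?_, ?_, ?_, ?_⟩ <;> simp only [G1.val_mk, ofM] <;> fun_prop
    have h1 : G1.mk _ (hone _ (hu 0)) = 1 := by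
      apply hext
      rw [G1.val_mk, toM_ofM hb ha hb0, h0, G1.val_one, h1M]
    have h2 : (fun t => G1.mk _ (hone _ (hu t))) ⁻¹' L ∈ 𝓝 (0 : K) :=
      hcont.preimage_mem_nhds (by rw [h1]; exact ho.mem_nhds L.one_mem)
    obtain ⟨ε, hε, hball⟩ := Metric.mem_nhds_iff.mp h2
    obtain ⟨s, hs⟩ := NormedField.exists_lt_norm K (max 1 (‖t‖ / ε))
    have hs1 : 1 < ‖s‖ := lt_of_le_of_lt (le_max_left _ _) hs
    have hs2 : ‖t‖ / ε < ‖s‖ := lt_of_le_of_lt (le_max_right _ _) hs
    have hs0 : s ≠ 0 := by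
      rintro rfl
      rw [norm_zero] at hs1
      exact absurd hs1 (by norm_num)
    obtain ⟨d, hd1, hd2⟩ := hd s hs0
    have h3 : G1.mk _ (hone _ (hu (t / s ^ 2))) ∈ L := by
      apply hball
      rw [mem_ball_zero_iff, norm_div, norm_pow, div_lt_iff₀ (by positivity)]
      rw [div_lt_iff₀ hε] at hs2
      nlinarith [mul_pos hε (lt_trans one_pos hs1)]
    have h4 := hL.conj_mem _ h3 (G1.mk _ (hone d hd1))
    have h5 : G1.mk _ (hone d hd1) * G1.mk _ (hone _ (hu (t / s ^ 2))) =
        G1.mk _ (hone _ (hu t)) * G1.mk _ (hone d hd1) := by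
      apply hext
      simp only [G1.val_mul, G1.val_mk, toM_mul hb, toM_ofM hb ha hb0]
      rw [hd2, mul_div_cancel₀ _ (pow_ne_zero 2 hs0)]
    rwa [h5, mul_inv_cancel_right] at h4
  have hU : ∀ t : K, (uU t).det = 1 := fun t => by simp [uU, Matrix.det_fin_two]
  have hLo : ∀ t : K, (uL t).det = 1 := fun t => by simp [uL, Matrix.det_fin_two]
  have kU := key uU hU (fun i j => by fin_cases i <;> fin_cases j <;> simp [uU] <;> fun_prop)
    (by ext i j; fin_cases i <;> fin_cases j <;> simp [uU]) (fun s hs =>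
      ⟨!![s, 0; 0, s⁻¹], by simp [Matrix.det_fin_two, hs], fun t => by
        ext i j
        fin_cases i <;> fin_cases j <;> simp [uU, Matrix.mul_apply, Fin.sum_univ_two]
        field_simp⟩)
  have kL := key uL hLo (fun i j => by fin_cases i <;> fin_cases j <;> simp [uL] <;> fun_prop)
    (by ext i j; fin_cases i <;> fin_cases j <;> simp [uL]) (fun s hs =>
      ⟨!![s⁻¹, 0; 0, s], by simp [Matrix.det_fin_two, hs], fun t => by
        ext i j
        fin_cases i <;> fin_cases j <;> simp [uL, Matrix.mul_apply, Fin.sum_univ_two]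
        field_simp⟩)
  rw [eq_top_iff]
  intro g _
  obtain ⟨t1, t2, t3, t4, h⟩ := sl2_dec (toM a x y g.val) (by
    rw [det_toM hb]
    exact (norm_one_iff _).mp g.prop)
  have e : g = G1.mk _ (hone _ (hU t1)) * G1.mk _ (hone _ (hLo t2)) * G1.mk _ (hone _ (hU t3)) *
      G1.mk _ (hone _ (hLo t4)) := by
    apply hext
    simp only [G1.val_mul, G1.val_mk, toM_mul hb, toM_ofM hb ha hb0]
    exact h
  rw [e]
  exact L.mul_mem (L.mul_mem (L.mul_mem (kU t1) (kL t2)) (kU t3)) (kL t4)

/-- Open normal subgroups have finite index. -/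
theorem index_ne_zero_loc [ProperSpace K] (ha : a ≠ 0) (hb0 : b ≠ 0) (L : Subgroup (G1 a b))
    (hL : L.Normal) (ho : IsOpen (L : Set (G1 a b))) : L.index ≠ 0 := by
  by_cases hb : ∃ x y : K, b = x ^ 2 - a * y ^ 2
  · obtain ⟨x, y, hb⟩ := hb
    rw [eq_top_of_split hb ha hb0 L hL ho, Subgroup.index_top]
    exact one_ne_zero
  · have := compact_of_aniso ha hb
    have := L.quotient_finite_of_isOpen ho
    exact Subgroup.index_ne_zero_of_finite

end split

end Vale.Agent.P011N.A1b
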