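import Vale.Agent.P011N.A1b.Tr

/-!
A normal subgroup which contains the `e`-th powers of the elements integral outside `S₀` generates
the norm-one group together with the elements integral outside `S₀` and the primes of `e`.
-/

open NumberField IsDedekindDomain

namespace Vale.Agent.P011N.A1b

open Vale.Agent.P011 Vale.Agent.P011.MPQ Vale.Agent.P011.Arith Vale.Agent.P011.MPQ.I34

variable {F : Type} [Field F] [NumberField F] {a b : Fˣ}
  {S : Set (HeightOneSpectrum (𝓞 F))} {v : HeightOneSpectrum (𝓞 F)}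

/-- Conjugation by a prime element preserves integrality. -/
theorem conj_int (π : (Qt a b)ˣ)
    (hπ1 : v.valuation F (nrd (π : Qt a b)) = WithZero.exp (-1 : ℤ))
    (hπ2 : ∀ w ∉ S, w ≠ v → w.valuation F (nrd (π : Qt a b)) = 1) {y : Qt a b} (hy : IntQ S y)
    (hd : Dv v y) : IntQ S ((nrd (π : Qt a b))⁻¹ • y) := by
  have key : ∀ w ∉ S, IntA w ((nrd (π : Qt a b))⁻¹ • y) := by
    intro w hw
    by_cases hwv : w = v
    · subst hwv
      exact (dv_iff hπ1).mp hd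
    · refine IntA.smul' ?_ (IntQ.at hy hw)
      rw [map_inv₀, hπ2 w hw hwv, inv_one]
  exact ⟨fun w hw => (key w hw).1, fun w hw => (key w hw).2.1, fun w hw => (key w hw).2.2.1,
    fun w hw => (key w hw).2.2.2⟩

/-- A unipotent element which fixes the given neighbour. -/
theorem exists_fix (hS : Lg a b S) (hv : v ∉ S) {e : ℕ} (N : Subgroup (Qt a b)ˣ)
    (hn : ∀ g ∈ SL1 a b, ∀ n ∈ N, g * n * g⁻¹ ∈ N) {u : (Qt a b)ˣ} (hu : u ∈ Gam a b S hS.adm)
    (hut : v.valuation F (trd ((u : (Qt a b)ˣ) : Qt a b) - 2) = WithZero.exp (-1))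
    (hue : u ^ e ∈ N) (π : (Qt a b)ˣ) (hπ : IntQ S (π : Qt a b))
    (hπ1 : v.valuation F (nrd (π : Qt a b)) = WithZero.exp (-1 : ℤ))
    (hπ2 : ∀ w ∉ S, w ≠ v → w.valuation F (nrd (π : Qt a b)) = 1) :
    ∃ u' ∈ Gam a b S hS.adm,
      v.valuation F (trd ((u' : (Qt a b)ˣ) : Qt a b) - 2) = WithZero.exp (-1) ∧
      π * u' ^ e * π⁻¹ ∈ N := by
  have hA := hS.adm
  have hu1 := (mem_Gam.mp hu).1
  have hui := (mem_Gam.mp hu).2
  have hx : IntQ S ((u : Qt a b) - 1) := hui.sub IntQ.one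
  have hnx : v.valuation F (nrd ((u : Qt a b) - 1)) = WithZero.exp (-1 : ℤ) := by
    rw [nrd_sub_one, hu1]
    have h5 : (1 : F) - trd (u : Qt a b) + 1 = -(trd (u : Qt a b) - 2) := by ring
    rw [h5, Valuation.map_neg, hut]
  have hlt : ∀ {y : Qt a b}, v.valuation F (nrd y) = WithZero.exp (-1 : ℤ) →
      v.valuation F (nrd y) < 1 ∧ ¬ Dv v y := by
    intro y hy
    refine ⟨by rw [hy, ← WithZero.exp_zero, WithZero.exp_lt_exp]; norm_num, fun h => ?_⟩
    have h1 := val_nrd_of_Dv (hA.a v hv).le (hA.b v hv).le h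
    rw [hy, WithZero.exp_le_exp] at h1
    omega
  obtain ⟨γ, hγ, hd⟩ := hS.tr hv ((u : Qt a b) - 1) (π : Qt a b) hx hπ (hlt hnx).1 (hlt hπ1).1
    (hlt hnx).2 (hlt hπ1).2
  have hγi := (mem_Gam.mp hγ).2
  have hγi' := (mem_Gam.mp (inv_mem hγ)).2
  have hval : ((π⁻¹ * (γ * u * γ⁻¹) * π : (Qt a b)ˣ) : Qt a b) = 1 + (nrd (π : Qt a b))⁻¹ •
      (cj (π : Qt a b) * (γ : Qt a b) * ((u : Qt a b) - 1) * (((γ⁻¹ : (Qt a b)ˣ) : Qt a b) * π)) := by
    rw [← smul_mul_assoc, ← smul_mul_assoc, ← smul_mul_assoc, ← inv_val π, mul_sub, sub_mul,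
      mul_one]
    have e1 : ((π⁻¹ : (Qt a b)ˣ) : Qt a b) * (γ : Qt a b) * (((γ⁻¹ : (Qt a b)ˣ) : Qt a b) * π) = 1 := by
      rw [mul_assoc, ← mul_assoc (γ : Qt a b), Units.mul_inv, one_mul, Units.inv_mul]
    rw [e1]
    simp only [Units.val_mul, mul_assoc]
    abel
  refine ⟨π⁻¹ * (γ * u * γ⁻¹) * π, mem_Gam.mpr ⟨?_, ?_⟩, ?_, ?_⟩
  · have e1 : π⁻¹ * (γ * u * γ⁻¹) * π = (π⁻¹ * γ) * u * (π⁻¹ * γ)⁻¹ := by group
    rw [e1, nrd_conj, hu1]
  · rw [hval]
    refine IntQ.one.add (conj_int π hπ1 hπ2 ?_ ?_)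
    · exact ((hπ.cj.mul hA hγi).mul hA hx).mul hA (hγi'.mul hA hπ)
    · exact dv_of_mul_left hA hv hd (IntQ.at (hγi'.mul hA hπ) hv)
  · have e1 : trd ((π⁻¹ * (γ * u * γ⁻¹) * π : (Qt a b)ˣ) : Qt a b) = trd (u : Qt a b) := by
      rw [Units.val_mul, trd_mul_comm, Units.val_mul, ← mul_assoc, Units.mul_inv, one_mul,
        Units.val_mul, trd_mul_comm, Units.val_mul, ← mul_assoc, Units.inv_mul, one_mul]
    rw [e1, hut]
  · have e1 : π * (π⁻¹ * (γ * u * γ⁻¹) * π) ^ e * π⁻¹ = γ * u ^ e * γ⁻¹ := by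
      have e2 : π⁻¹ * (γ * u * γ⁻¹) * π = (π⁻¹ * γ) * u * (π⁻¹ * γ)⁻¹ := by group
      rw [e2, conj_pow]
      group
    rw [e1]
    exact hn γ (mem_Gam.mp hγ).1 _ hue

/-- Conjugates by a prime element. -/
theorem conj_mem (hS : Lg a b S) (hv : v ∉ S) {e : ℕ} (he : v.valuation F (e : F) = 1)
    (N E : Subgroup (Qt a b)ˣ) (hNE : N ≤ E) (hE : Gam a b S hS.adm ≤ E)
    (hn' : ∀ g ∈ SL1 a b, ∀ n ∈ N, g * n * g⁻¹ ∈ N) {u : (Qt a b)ˣ} (hu : u ∈ Gam a b S hS.adm)
    (hut : v.valuation F (trd ((u : (Qt a b)ˣ) : Qt a b) - 2) = WithZero.exp (-1))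
    (hue : u ^ e ∈ N) (π : (Qt a b)ˣ)
    (hπ : IntQ S (π : Qt a b)) (hπ1 : v.valuation F (nrd (π : Qt a b)) = WithZero.exp (-1 : ℤ))
    (hπ2 : ∀ w ∉ S, w ≠ v → w.valuation F (nrd (π : Qt a b)) = 1) (γ : (Qt a b)ˣ)
    (hγ : γ ∈ Gam a b S hS.adm) : π * γ * π⁻¹ ∈ E := by
  have hA := hS.adm
  let H : Subgroup (Qt a b)ˣ := Gam a b S hA ⊓ N.comap (MulAut.conj π).toMonoidHom
  have hH : ∀ x, x ∈ H ↔ x ∈ Gam a b S hA ∧ π * x * π⁻¹ ∈ N := by
    intro x
    rw [Subgroup.mem_inf, Subgroup.mem_comap]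
    exact Iff.rfl
  have hcSL : ∀ x ∈ Gam a b S hA, π * x * π⁻¹ ∈ SL1 a b := by
    intro x hx
    change nrd ((π * x * π⁻¹ : (Qt a b)ˣ) : Qt a b) = 1
    rw [nrd_conj]
    exact (mem_Gam.mp hx).1
  have hn : ∀ g ∈ Gam a b S hA, ∀ h ∈ H, g * h * g⁻¹ ∈ H := by
    intro g hg h hh
    rw [hH] at hh ⊢
    refine ⟨mul_mem (mul_mem hg hh.1) (inv_mem hg), ?_⟩
    have e1 : π * (g * h * g⁻¹) * π⁻¹ = (π * g * π⁻¹) * (π * h * π⁻¹) * (π * g * π⁻¹)⁻¹ := by group
    rw [e1]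
    exact hn' _ (hcSL g hg) _ hh.2
  obtain ⟨u', hu', hut', hue'⟩ := exists_fix hS hv N hn' hu hut hue π hπ hπ1 hπ2
  have hpow : u' ^ e ∈ H := (hH _).mpr ⟨pow_mem hu' e, hue'⟩
  have hndv : ¬ Dv v (cj (π : Qt a b)) := by
    intro h
    have h1 := val_nrd_of_Dv (hA.a v hv).le (hA.b v hv).le h
    rw [nrd_cj, hπ1, WithZero.exp_le_exp] at h1
    omega
  have hlt : v.valuation F (nrd (cj (π : Qt a b))) < 1 := by
    rw [nrd_cj, hπ1, ← WithZero.exp_zero, WithZero.exp_lt_exp]; norm_num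
  have hγi := (mem_Gam.mp hγ).2
  have hγ1 := (mem_Gam.mp hγ).1
  have hndv' : ¬ Dv v ((γ : Qt a b) * cj (π : Qt a b)) := by
    intro h
    apply hndv
    have e1 : cj (π : Qt a b) = ((γ⁻¹ : (Qt a b)ˣ) : Qt a b) * ((γ : Qt a b) * cj (π : Qt a b)) := by
      rw [← mul_assoc, Units.inv_mul, one_mul]
    rw [e1]
    exact dv_of_mul_right hA hv (IntQ.at (mem_Gam.mp (inv_mem hγ)).2 hv) h
  have hlt' : v.valuation F (nrd ((γ : Qt a b) * cj (π : Qt a b))) < 1 := by
    rw [nrd_mul, hγ1, one_mul]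
    exact hlt
  obtain ⟨h, hh, hd⟩ := tr_of_unip hA hv he (hS.ex v hv) H hn hu' hut' hpow (cj (π : Qt a b))
    ((γ : Qt a b) * cj (π : Qt a b)) hπ.cj (hγi.mul hA hπ.cj) hlt hlt' hndv hndv'
  rw [cj_mul, cj_cj, ← inv_eq_cj hγ1] at hd
  rw [hH] at hh
  have hg1 : π * γ⁻¹ * h * π⁻¹ ∈ Gam a b S hA := by
    rw [mem_Gam]
    constructor
    · rw [show π * γ⁻¹ * h * π⁻¹ = π * (γ⁻¹ * h) * π⁻¹ by group, nrd_conj]
      exact (mem_Gam.mp (mul_mem (inv_mem hγ) hh.1)).1
    · have e1 : ((π * γ⁻¹ * h * π⁻¹ : (Qt a b)ˣ) : Qt a b) = (nrd (π : Qt a b))⁻¹ •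
          ((π : Qt a b) * ((γ⁻¹ : (Qt a b)ˣ) : Qt a b) * (h : Qt a b) * cj (π : Qt a b)) := by
        rw [Units.val_mul, Units.val_mul, Units.val_mul, inv_val π, mul_smul_comm]
      have hprod : IntQ S ((π : Qt a b) * ((γ⁻¹ : (Qt a b)ˣ) : Qt a b) * (h : Qt a b) *
          cj (π : Qt a b)) :=
        (((hπ.mul hA (mem_Gam.mp (inv_mem hγ)).2).mul hA (mem_Gam.mp hh.1).2).mul hA hπ.cj)
      have key : ∀ w ∉ S, IntA w ((π * γ⁻¹ * h * π⁻¹ : (Qt a b)ˣ) : Qt a b) := by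
        intro w hw
        rw [e1]
        by_cases hwv : w = v
        · subst hwv
          exact (dv_iff hπ1).mp hd
        · refine IntA.smul' ?_ (IntQ.at hprod hw)
          rw [map_inv₀, hπ2 w hw hwv, inv_one]
      exact ⟨fun w hw => (key w hw).1, fun w hw => (key w hw).2.1, fun w hw => (key w hw).2.2.1,
        fun w hw => (key w hw).2.2.2⟩
  have h3 : (π * γ⁻¹ * h * π⁻¹) * (π * h * π⁻¹)⁻¹ ∈ E :=
    mul_mem (hE hg1) (inv_mem (hNE hh.2))
  have e3 : (π * γ⁻¹ * h * π⁻¹) * (π * h * π⁻¹)⁻¹ = (π * γ * π⁻¹)⁻¹ := by group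
  rw [e3] at h3
  exact inv_mem_iff.mp h3

/-- The main induction. -/
theorem extend_aux (hS : Lg a b S) (hv : v ∉ S) {e : ℕ} (he : v.valuation F (e : F) = 1)
    (N E : Subgroup (Qt a b)ˣ) (hNE : N ≤ E) (hE : Gam a b S hS.adm ≤ E)
    (hn' : ∀ g ∈ SL1 a b, ∀ n ∈ N, g * n * g⁻¹ ∈ N) {u : (Qt a b)ˣ} (hu : u ∈ Gam a b S hS.adm)
    (hut : v.valuation F (trd ((u : (Qt a b)ˣ) : Qt a b) - 2) = WithZero.exp (-1))
    (hue : u ^ e ∈ N) :
    ∀ (n : ℕ) (y : (Qt a b)ˣ), y ∈ SL1 a b → IntQ (insert v S) (y : Qt a b) →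
      (∀ t : F, v.valuation F t = WithZero.exp (-1 : ℤ) → IntA v (t ^ n • (y : Qt a b))) →
      y ∈ E := by
  have hA := hS.adm
  intro n
  induction n with
  | zero =>
    intro y hy hy1 hy2
    obtain ⟨t, ht⟩ := v.valuation_exists_uniformizer F
    have h1 := hy2 t ht
    rw [pow_zero, one_smul] at h1
    refine hE (mem_Gam.mpr ⟨hy, ?_⟩)
    have key : ∀ w ∉ S, IntA w (y : Qt a b) := by
      intro w hw
      by_cases hwv : w = v
      · rw [hwv]; exact h1
      · exact IntQ.at hy1 (fun h => (Set.mem_insert_iff.mp h).elim hwv hw)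
    exact ⟨fun w hw => (key w hw).1, fun w hw => (key w hw).2.1, fun w hw => (key w hw).2.2.1,
      fun w hw => (key w hw).2.2.2⟩
  | succ n ih =>
    intro y hy hy1 hy2
    obtain ⟨t, ht⟩ := exists_int_unif v
    have ht0 : (t : F) ≠ 0 := by
      intro h
      rw [h, map_zero] at ht
      exact WithZero.exp_ne_zero ht.symm
    set Y : Qt a b := (t : F) ^ (n + 1) • (y : Qt a b) with hY
    have hYv : IntA v Y := hy2 t ht
    -- change of the uniformizer
    have hchange : ∀ (m : ℕ) (z : Qt a b), IntA v ((t : F) ^ m • z) →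
        ∀ s : F, v.valuation F s = WithZero.exp (-1 : ℤ) → IntA v (s ^ m • z) := by
      intro m z hz s hs
      have e1 : s ^ m • z = (s ^ m * ((t : F) ^ m)⁻¹) • ((t : F) ^ m • z) := by
        rw [smul_smul, mul_assoc, inv_mul_cancel₀ (pow_ne_zero m ht0), mul_one]
      rw [e1]
      refine IntA.smul' ?_ hz
      rw [map_mul, map_inv₀, map_pow, map_pow, hs, ht, mul_inv_cancel₀]
      exact pow_ne_zero m WithZero.exp_ne_zero
    by_cases hd : Dv v Y
    · refine ih y hy hy1 (hchange n _ ?_)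
      rw [dv_iff ht, hY, smul_smul] at hd
      have e1 : (t : F)⁻¹ * (t : F) ^ (n + 1) = (t : F) ^ n := by
        rw [pow_succ]
        field_simp
      rwa [e1] at hd
    · have hYint : IntQ S Y := by
        have key : ∀ w ∉ S, IntA w Y := by
          intro w hw
          by_cases hwv : w = v
          · rw [hwv]; exact hYv
          · refine IntA.smul' ?_ (IntQ.at hy1 (fun h => (Set.mem_insert_iff.mp h).elim hwv hw))
            rw [map_pow]
            exact pow_le_one' (w.valuation_le_one t) _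
        exact ⟨fun w hw => (key w hw).1, fun w hw => (key w hw).2.1, fun w hw => (key w hw).2.2.1,
          fun w hw => (key w hw).2.2.2⟩
      have hnY : v.valuation F (nrd Y) = WithZero.exp (-(2 * (n + 1 : ℕ) : ℤ)) := by
        have hy' : nrd (y : Qt a b) = 1 := hy
        rw [hY, nrd_smul', hy', mul_one, map_pow, map_pow, ht, ← pow_mul, ← WithZero.exp_nsmul]
        congr 1
        simp
        ring
      obtain ⟨π, hπ, hπ1, hπ2, hπ3⟩ := exists_pi hA hS.pid hv Y hYint (by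
        rw [hnY, ← WithZero.exp_zero, WithZero.exp_lt_exp]; omega) hd
      set Z : Qt a b := ((π⁻¹ : (Qt a b)ˣ) : Qt a b) * Y with hZ
      have hYZ : Y = (π : Qt a b) * Z := by rw [hZ, ← mul_assoc, Units.mul_inv, one_mul]
      have hdZ : ¬ Dv v Z := by
        intro h
        apply hd
        rw [hYZ]
        exact dv_of_mul_right hA hv (IntQ.at hπ hv) h
      have hnZ : v.valuation F (nrd Z) < 1 := by
        rw [hZ, nrd_mul, nrd_inv, map_mul, map_inv₀, hπ1, hnY, ← WithZero.exp_neg,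
          ← WithZero.exp_add, ← WithZero.exp_zero, WithZero.exp_lt_exp]
        push_cast
        omega
      have hndv : ¬ Dv v (cj (π : Qt a b)) := by
        intro h
        have h1 := val_nrd_of_Dv (hA.a v hv).le (hA.b v hv).le h
        rw [nrd_cj, hπ1, WithZero.exp_le_exp] at h1
        omega
      have hlt : v.valuation F (nrd (cj (π : Qt a b))) < 1 := by
        rw [nrd_cj, hπ1, ← WithZero.exp_zero, WithZero.exp_lt_exp]; norm_num
      obtain ⟨γ, hγ, hdγ⟩ := hS.tr hv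
        Z (cj (π : Qt a b)) hπ3 hπ.cj hnZ hlt hdZ hndv
      rw [cj_cj] at hdγ
      have hg := conj_mem hS hv he N E hNE hE hn' hu hut hue π hπ hπ1 hπ2 γ hγ
      set g : (Qt a b)ˣ := π * γ * π⁻¹ with hgdef
      have hgSL : g ∈ SL1 a b := by
        change nrd ((π * γ * π⁻¹ : (Qt a b)ˣ) : Qt a b) = 1
        rw [nrd_conj]
        exact (mem_Gam.mp hγ).1
      have hgy : g * y ∈ E := by
        refine ih (g * y) (mul_mem hgSL hy) ?_ (hchange n _ ?_)
        · have key : ∀ w ∉ (insert v S : Set (HeightOneSpectrum (𝓞 F))),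
              IntA w ((g * y : (Qt a b)ˣ) : Qt a b) := by
            intro w hw
            have hwv : w ≠ v := fun h => hw (Set.mem_insert_iff.mpr (Or.inl h))
            have hwS : w ∉ S := fun h => hw (Set.mem_insert_of_mem _ h)
            have hπi : IntA w ((π⁻¹ : (Qt a b)ˣ) : Qt a b) := by
              rw [inv_val]
              refine IntA.smul' ?_ (IntA.cj' (IntQ.at hπ hwS))
              rw [map_inv₀, hπ2 w hwS hwv, inv_one]
            rw [hgdef, Units.val_mul, Units.val_mul, Units.val_mul]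
            exact IntA.mul' hA hwS (IntA.mul' hA hwS (IntA.mul' hA hwS (IntQ.at hπ hwS)
              (IntQ.at (mem_Gam.mp hγ).2 hwS)) hπi) (IntQ.at hy1 hw)
          exact ⟨fun w hw => (key w hw).1, fun w hw => (key w hw).2.1, fun w hw => (key w hw).2.2.1,
            fun w hw => (key w hw).2.2.2⟩
        · have e1 : (t : F) ^ n • ((g * y : (Qt a b)ˣ) : Qt a b) =
              (t : F)⁻¹ • ((π : Qt a b) * (γ : Qt a b) * Z) := by
            rw [hZ, hY, hgdef, Units.val_mul, Units.val_mul, Units.val_mul, mul_smul_comm,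
              mul_smul_comm, smul_smul]
            have e2 : (t : F)⁻¹ * (t : F) ^ (n + 1) = (t : F) ^ n := by
              rw [pow_succ]
              field_simp
            rw [e2]
            simp only [mul_assoc]
          rw [e1]
          exact (dv_iff ht).mp hdγ
      have e4 : y = g⁻¹ * (g * y) := by group
      rw [e4]
      exact mul_mem (inv_mem hg) hgy

/-- The norm-one group is generated by the normal subgroup and the integral elements. -/
theorem tree {M : ℕ} (hM : ∀ S : Set (HeightOneSpectrum (𝓞 F)), SM F M ⊆ S → Lg a b S) {e : ℕ}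
    (N : Subgroup (Qt a b)ˣ) (hn : ∀ g ∈ SL1 a b, ∀ n ∈ N, g * n * g⁻¹ ∈ N)
    (hpow : ∀ g ∈ Gam a b (SM F M) (hM _ le_rfl).adm, g ^ e ∈ N) (E : Subgroup (Qt a b)ˣ)
    (hNE : N ≤ E)
    (hE : Gam a b (SM F (M * e)) (hM _ (SM_mono (dvd_mul_right M e))).adm ≤ E) :
    SL1 a b ≤ E := by
  have h0 : SM F M ⊆ SM F (M * e) := SM_mono (dvd_mul_right M e)
  have key : ∀ T : Set (HeightOneSpectrum (𝓞 F)), T.Finite → ∀ x ∈ SL1 a b,
      IntQ (SM F (M * e) ∪ T) ((x : (Qt a b)ˣ) : Qt a b) → x ∈ E := by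
    intro T hT
    induction T, hT using Set.Finite.induction_on with
    | empty =>
      intro x hx1 hx
      exact hE (mem_Gam.mpr ⟨hx1, by rwa [Set.union_empty] at hx⟩)
    | @insert v T hvT hT ih =>
      intro x hx1 hx
      by_cases hv : v ∈ SM F (M * e) ∪ T
      · refine ih x hx1 ?_
        rwa [Set.union_insert, Set.insert_eq_of_mem hv] at hx
      · have hS := hM (SM F (M * e) ∪ T) (h0.trans Set.subset_union_left)
        have hv0 : v ∉ SM F M := fun h => hv (Or.inl (h0 h))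
        have hv1 : v.valuation F ((M * e : ℕ) : F) = 1 := notMem_SM.mp fun h => hv (Or.inl h)
        obtain ⟨u, hu, hut⟩ := (hM _ le_rfl).exists_unip hv0
        obtain ⟨n, hn1⟩ := exists_den_at v ((x : (Qt a b)ˣ) : Qt a b)
        refine extend_aux hS hv (val_dvd (dvd_mul_left e M) hv1) N E hNE
          (fun g hg => ih g (mem_Gam.mp hg).1 (mem_Gam.mp hg).2) hn
          (mem_Gam.mpr ⟨(mem_Gam.mp hu).1, (mem_Gam.mp hu).2.mono
            (h0.trans Set.subset_union_left)⟩) hut (hpow u hu) n x hx1 ?_ hn1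
        rwa [Set.union_insert] at hx
  intro x hx1
  obtain ⟨T, hT, hx⟩ := exists_finite ((x : (Qt a b)ˣ) : Qt a b)
  exact key T hT x hx1 (hx.mono Set.subset_union_right)

end Vale.Agent.P011N.A1b
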